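import Mathlib
import Vale.Agent.P043.EuclidMain
import Vale.Agent.P043.R3.Exist
import Vale.Agent.P043.R3.Lift
import Vale.Agent.P043.D3.Main
import Vale.Agent.P043.D3.Proof

/-!
P043: the periodic tiling conjecture fails in `ℤ^d` and in `ℝ^d` for every `d ≥ 3`.
-/

namespace Vale.Agent.Results.P043.FailsFromDimensionThree

open MeasureTheory in
/-- For every `d ≥ 3` some finite set tiles `ℤ^d`, and some bounded measurable set tiles `ℝ^d`,
by translations with no periodic tiling. -/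
theorem result :
    (∀ d : ℕ, 3 ≤ d →
      ∃ Ω : Set (Fin d → ℝ),
        MeasurableSet Ω ∧ Bornology.IsBounded Ω ∧ 0 < volume Ω ∧
        (∃ A : Set (Fin d → ℝ), A.Countable ∧
          volume (⋃ a ∈ A, (fun y => y + a) '' Ω)ᶜ = 0 ∧
          A.Pairwise fun a b => volume ((fun y => y + a) '' Ω ∩ (fun y => y + b) '' Ω) = 0) ∧
        ∀ A : Set (Fin d → ℝ),
          volume (⋃ a ∈ A, (fun y => y + a) '' Ω)ᶜ = 0 →
          (A.Pairwise fun a b => volume ((fun y => y + a) '' Ω ∩ (fun y => y + b) '' Ω) = 0) →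
          ¬∃ v : Fin d → Fin d → ℝ, LinearIndependent ℝ v ∧
            ∀ i, ∀ a, a + v i ∈ A ↔ a ∈ A) ∧
    ∀ d : ℕ, 3 ≤ d →
      ∃ F : Finset (Fin d → ℤ),
        (∃ A : Set (Fin d → ℤ), ∀ z : Fin d → ℤ,
          ∃! p : (Fin d → ℤ) × (Fin d → ℤ), p.1 ∈ A ∧ p.2 ∈ F ∧ p.1 + p.2 = z) ∧
        ∀ A : Set (Fin d → ℤ),
          (∀ z : Fin d → ℤ,
            ∃! p : (Fin d → ℤ) × (Fin d → ℤ), p.1 ∈ A ∧ p.2 ∈ F ∧ p.1 + p.2 = z) →
          ¬ ∃ H : AddSubgroup (Fin d → ℤ), H.index ≠ 0 ∧ ∀ h ∈ H, ∀ a, a + h ∈ A ↔ a ∈ A := by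
  refine ⟨fun d hd => ?_, fun d hd => ?_⟩
  swap
  · obtain ⟨S⟩ := Vale.Agent.P043.D3.exists_par Vale.Agent.P043.D3.Var Vale.Agent.P043.D3.vb
    exact Vale.Agent.P043.D3.aperiodic_dim_of S (Vale.Agent.P043.D3.system S) d hd
  rcases Nat.lt_or_ge d 4 with h | h
  · obtain rfl : d = 3 := by omega
    exact Vale.Agent.P043.R3.lift Vale.Agent.P043.R3.sys_fits Vale.Agent.P043.R3.sys_sol
      Vale.Agent.P043.R3.period_zero
  · obtain ⟨Ω, ⟨hm, hb, hp, -⟩, ht, hno⟩ := Vale.Agent.P043.Euclid.euclid_dim d h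
    exact ⟨Ω, hm, hb, hp, ht, hno⟩

end Vale.Agent.Results.P043.FailsFromDimensionThree
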